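import Crest.Agent.Lib.Bc.TailShort.DataSp
/-!
# Row 163, tail pair corollaries: data and kernel checks for `Pm` (helper61), generated.
`H..1`, `H..2`: the two hats, `K₂ K D(chart) = s² t² (s² H1 + t² H2)`; all Bernstein digits are positive.
-/
namespace Crest.Agent.Lib.Bc.TailShort
open BiCheck (Term Rval termV Ax Side Prob)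

/-- `64` times the difference for `Pm` in `(a, 2c, 4a', 8c')` -/
noncomputable def TPm : List Term := [
  ⟨0,1,0,0,2,0,0,4⟩, ⟨0,1,0,1,1,0,9,0⟩, ⟨0,1,0,2,0,0,6,0⟩, ⟨0,2,0,0,1,0,0,16⟩, ⟨0,2,0,0,2,0,0,4⟩, ⟨0,2,0,1,1,0,12,0⟩,
  ⟨1,0,0,1,1,0,12,0⟩, ⟨1,0,0,2,0,0,16,0⟩, ⟨1,1,0,0,1,0,36,0⟩, ⟨1,1,0,0,2,0,12,0⟩, ⟨1,1,0,1,0,0,48,0⟩, ⟨1,1,0,1,1,0,0,27⟩,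
  ⟨1,1,0,2,0,0,0,54⟩, ⟨2,0,0,0,1,0,24,0⟩, ⟨2,0,0,1,0,0,64,0⟩, ⟨2,0,0,1,1,0,0,54⟩, ⟨2,0,0,2,0,0,84,0⟩]

/-- first hat of `Pm` -/
noncomputable def HPm1 : List Term := [
  ⟨0,0,0,0,0,0,65536,0⟩, ⟨0,0,0,0,1,0,0,49152⟩, ⟨0,0,0,1,0,0,0,24576⟩, ⟨0,0,0,1,1,0,27648,0⟩, ⟨0,0,0,2,0,0,43008,0⟩, ⟨0,0,0,2,1,0,0,64512⟩,
  ⟨0,0,0,2,2,0,24192,0⟩, ⟨0,1,0,0,0,0,0,98304⟩, ⟨0,1,0,0,1,0,73728,0⟩, ⟨0,1,0,1,0,0,36864,0⟩, ⟨0,1,0,1,1,0,0,41472⟩, ⟨0,1,0,2,0,0,0,64512⟩,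
  ⟨0,1,0,2,1,0,96768,0⟩, ⟨0,1,0,2,2,0,0,36288⟩, ⟨0,2,0,0,0,0,36864,0⟩, ⟨0,2,0,0,1,0,0,27648⟩, ⟨0,2,0,1,0,0,0,13824⟩, ⟨0,2,0,1,1,0,15552,0⟩,
  ⟨0,2,0,2,0,0,24192,0⟩, ⟨0,2,0,2,1,0,0,36288⟩, ⟨0,2,0,2,2,0,13608,0⟩, ⟨1,0,0,0,0,0,98304,0⟩, ⟨1,0,0,0,1,0,0,73728⟩, ⟨1,0,0,1,0,0,0,73728⟩,
  ⟨1,0,0,1,1,0,82944,0⟩, ⟨1,0,0,2,0,0,0,138240⟩, ⟨1,0,0,2,1,0,207360,0⟩, ⟨1,0,0,2,2,0,0,77760⟩, ⟨1,0,0,3,0,0,27648,0⟩, ⟨1,0,0,3,1,0,0,51840⟩,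
  ⟨1,0,0,3,2,0,23328,0⟩, ⟨1,1,0,0,0,0,0,184320⟩, ⟨1,1,0,0,1,0,138240,0⟩, ⟨1,1,0,1,0,0,138240,0⟩, ⟨1,1,0,1,1,0,0,155520⟩, ⟨1,1,0,2,0,0,259200,0⟩,
  ⟨1,1,0,2,1,0,0,388800⟩, ⟨1,1,0,2,2,0,145800,0⟩, ⟨1,1,0,3,0,0,0,51840⟩, ⟨1,1,0,3,1,0,97200,0⟩, ⟨1,1,0,3,2,0,0,43740⟩, ⟨1,2,0,0,0,0,82944,0⟩,
  ⟨1,2,0,0,1,0,0,62208⟩, ⟨1,2,0,1,0,0,0,62208⟩, ⟨1,2,0,1,1,0,69984,0⟩, ⟨1,2,0,2,0,0,0,116640⟩, ⟨1,2,0,2,1,0,174960,0⟩, ⟨1,2,0,2,2,0,0,65610⟩,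
  ⟨1,2,0,3,0,0,23328,0⟩, ⟨1,2,0,3,1,0,0,43740⟩, ⟨1,2,0,3,2,0,19683,0⟩, ⟨2,0,0,1,0,0,65536,0⟩, ⟨2,0,0,1,1,0,0,73728⟩, ⟨2,0,0,3,0,0,0,24576⟩,
  ⟨2,0,0,3,1,0,46080,0⟩, ⟨2,0,0,3,2,0,0,20736⟩, ⟨2,1,0,1,0,0,0,147456⟩, ⟨2,1,0,1,1,0,165888,0⟩, ⟨2,1,0,3,0,0,55296,0⟩, ⟨2,1,0,3,1,0,0,103680⟩,
  ⟨2,1,0,3,2,0,46656,0⟩, ⟨2,2,0,1,0,0,82944,0⟩, ⟨2,2,0,1,1,0,0,93312⟩, ⟨2,2,0,3,0,0,0,31104⟩, ⟨2,2,0,3,1,0,58320,0⟩, ⟨2,2,0,3,2,0,0,26244⟩]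

/-- second hat of `Pm` -/
noncomputable def HPm2 : List Term := [
  ⟨0,0,0,0,0,0,16384,0⟩, ⟨0,0,0,0,1,0,0,24576⟩, ⟨0,0,0,0,2,0,9216,0⟩, ⟨0,0,0,1,0,0,0,12288⟩, ⟨0,0,0,1,1,0,23040,0⟩, ⟨0,0,0,1,2,0,0,10368⟩,
  ⟨0,1,0,0,0,0,0,12288⟩, ⟨0,1,0,0,1,0,18432,0⟩, ⟨0,1,0,0,2,0,0,6912⟩, ⟨0,1,0,1,0,0,9216,0⟩, ⟨0,1,0,1,1,0,0,17280⟩, ⟨0,1,0,1,2,0,7776,0⟩,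
  ⟨1,0,0,0,0,0,12288,0⟩, ⟨1,0,0,0,1,0,0,18432⟩, ⟨1,0,0,0,2,0,6912,0⟩, ⟨1,0,0,1,0,0,0,18432⟩, ⟨1,0,0,1,1,0,34560,0⟩, ⟨1,0,0,1,2,0,0,15552⟩,
  ⟨1,0,0,2,0,0,0,8192⟩, ⟨1,0,0,2,1,0,18432,0⟩, ⟨1,0,0,2,2,0,0,10368⟩, ⟨1,1,0,0,0,0,0,13824⟩, ⟨1,1,0,0,1,0,20736,0⟩, ⟨1,1,0,0,2,0,0,7776⟩,
  ⟨1,1,0,1,0,0,20736,0⟩, ⟨1,1,0,1,1,0,0,38880⟩, ⟨1,1,0,1,2,0,17496,0⟩, ⟨1,1,0,2,0,0,9216,0⟩, ⟨1,1,0,2,1,0,0,20736⟩, ⟨1,1,0,2,2,0,11664,0⟩,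
  ⟨2,0,0,0,0,0,43008,0⟩, ⟨2,0,0,0,1,0,0,64512⟩, ⟨2,0,0,0,2,0,24192,0⟩, ⟨2,0,0,1,0,0,55296,0⟩, ⟨2,0,0,1,1,0,0,103680⟩, ⟨2,0,0,1,2,0,46656,0⟩,
  ⟨2,1,0,0,0,0,0,64512⟩, ⟨2,1,0,0,1,0,96768,0⟩, ⟨2,1,0,0,2,0,0,36288⟩, ⟨2,1,0,1,0,0,0,82944⟩, ⟨2,1,0,1,1,0,155520,0⟩, ⟨2,1,0,1,2,0,0,69984⟩,
  ⟨2,2,0,0,0,0,24192,0⟩, ⟨2,2,0,0,1,0,0,36288⟩, ⟨2,2,0,0,2,0,13608,0⟩, ⟨2,2,0,1,0,0,31104,0⟩, ⟨2,2,0,1,1,0,0,58320⟩, ⟨2,2,0,1,2,0,26244,0⟩,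
  ⟨3,0,0,0,0,0,27648,0⟩, ⟨3,0,0,0,1,0,0,41472⟩, ⟨3,0,0,0,2,0,15552,0⟩, ⟨3,0,0,1,0,0,27648,0⟩, ⟨3,0,0,1,1,0,0,51840⟩, ⟨3,0,0,1,2,0,23328,0⟩,
  ⟨3,0,0,2,0,0,24576,0⟩, ⟨3,0,0,2,1,0,0,55296⟩, ⟨3,0,0,2,2,0,31104,0⟩, ⟨3,1,0,0,0,0,0,51840⟩, ⟨3,1,0,0,1,0,77760,0⟩, ⟨3,1,0,0,2,0,0,29160⟩,
  ⟨3,1,0,1,0,0,0,51840⟩, ⟨3,1,0,1,1,0,97200,0⟩, ⟨3,1,0,1,2,0,0,43740⟩, ⟨3,1,0,2,0,0,0,46080⟩, ⟨3,1,0,2,1,0,103680,0⟩, ⟨3,1,0,2,2,0,0,58320⟩,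
  ⟨3,2,0,0,0,0,23328,0⟩, ⟨3,2,0,0,1,0,0,34992⟩, ⟨3,2,0,0,2,0,13122,0⟩, ⟨3,2,0,1,0,0,23328,0⟩, ⟨3,2,0,1,1,0,0,43740⟩, ⟨3,2,0,1,2,0,19683,0⟩,
  ⟨3,2,0,2,0,0,20736,0⟩, ⟨3,2,0,2,1,0,0,46656⟩, ⟨3,2,0,2,2,0,26244,0⟩, ⟨4,0,0,1,0,0,0,24576⟩, ⟨4,0,0,1,1,0,46080,0⟩, ⟨4,0,0,1,2,0,0,20736⟩,
  ⟨4,0,0,2,0,0,0,16384⟩, ⟨4,0,0,2,1,0,36864,0⟩, ⟨4,0,0,2,2,0,0,20736⟩, ⟨4,1,0,1,0,0,55296,0⟩, ⟨4,1,0,1,1,0,0,103680⟩, ⟨4,1,0,1,2,0,46656,0⟩,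
  ⟨4,1,0,2,0,0,36864,0⟩, ⟨4,1,0,2,1,0,0,82944⟩, ⟨4,1,0,2,2,0,46656,0⟩, ⟨4,2,0,1,0,0,0,31104⟩, ⟨4,2,0,1,1,0,58320,0⟩, ⟨4,2,0,1,2,0,0,26244⟩,
  ⟨4,2,0,2,0,0,0,20736⟩, ⟨4,2,0,2,1,0,46656,0⟩, ⟨4,2,0,2,2,0,0,26244⟩]

noncomputable def PHPm1 : Prob := ⟨⟨⟨2, 2, [0, 1, 2]⟩, ⟨2, 2, [0, 1, 2]⟩, triv, 28, 2^28, 198⟩, ⟨⟨2, 3, [0, 1, 2]⟩, ⟨2, 2, [0, 1, 2]⟩, triv, 28, 2^28, 198⟩, 89, 2^107, HPm1, [], []⟩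

set_option maxRecDepth 100000 in
theorem HPm1_check : PHPm1.check = true := by decide +kernel

noncomputable def PHPm2 : Prob := ⟨⟨⟨2, 4, [0, 1, 2]⟩, ⟨2, 2, [0, 1, 2]⟩, triv, 28, 2^28, 197⟩, ⟨⟨2, 2, [0, 1, 2]⟩, ⟨2, 2, [0, 1, 2]⟩, triv, 28, 2^28, 197⟩, 89, 2^106, HPm2, [], []⟩

set_option maxRecDepth 100000 in
theorem HPm2_check : PHPm2.check = true := by decide +kernel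

end Crest.Agent.Lib.Bc.TailShort
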