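import Crest.Agent.Lib.Bc.TailShort.DataSp
/-!
# Row 163, tail pair corollaries: data and kernel checks for `Sm` (helper61), generated.
`H..1`, `H..2`: the two hats, `K₂ K D(chart) = s² t² (s² H1 + t² H2)`; all Bernstein digits are positive.
-/
namespace Crest.Agent.Lib.Bc.TailShort
open BiCheck (Term Rval termV Ax Side Prob)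

/-- `32` times the difference for `Sm` in `(a, 2c, 4a', 8c')` -/
noncomputable def TSm : List Term := [
  ⟨0,1,0,1,1,0,0,1⟩, ⟨0,1,0,2,0,0,2,0⟩, ⟨1,0,0,2,0,0,4,0⟩, ⟨1,1,0,0,1,0,0,4⟩, ⟨1,1,0,1,1,0,0,1⟩, ⟨1,1,0,2,0,0,0,6⟩,
  ⟨2,0,0,0,1,0,8,0⟩, ⟨2,0,0,1,0,0,16,0⟩, ⟨2,0,0,1,1,0,0,6⟩, ⟨2,0,0,2,0,0,0,8⟩]

/-- first hat of `Sm` -/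
noncomputable def HSm1 : List Term := [
  ⟨0,0,0,0,0,0,16384,0⟩, ⟨0,0,0,0,1,0,0,12288⟩, ⟨0,0,0,1,0,0,0,8192⟩, ⟨0,0,0,1,1,0,9216,0⟩, ⟨0,0,0,2,0,0,0,10240⟩, ⟨0,0,0,2,1,0,15360,0⟩,
  ⟨0,0,0,2,2,0,0,5760⟩, ⟨0,0,0,3,0,0,3072,0⟩, ⟨0,0,0,3,1,0,0,5760⟩, ⟨0,0,0,3,2,0,2592,0⟩, ⟨0,1,0,0,0,0,0,24576⟩, ⟨0,1,0,0,1,0,18432,0⟩,
  ⟨0,1,0,1,0,0,12288,0⟩, ⟨0,1,0,1,1,0,0,13824⟩, ⟨0,1,0,2,0,0,15360,0⟩, ⟨0,1,0,2,1,0,0,23040⟩, ⟨0,1,0,2,2,0,8640,0⟩, ⟨0,1,0,3,0,0,0,4608⟩,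
  ⟨0,1,0,3,1,0,8640,0⟩, ⟨0,1,0,3,2,0,0,3888⟩, ⟨0,2,0,0,0,0,9216,0⟩, ⟨0,2,0,0,1,0,0,6912⟩, ⟨0,2,0,1,0,0,0,4608⟩, ⟨0,2,0,1,1,0,5184,0⟩,
  ⟨0,2,0,2,0,0,0,5760⟩, ⟨0,2,0,2,1,0,8640,0⟩, ⟨0,2,0,2,2,0,0,3240⟩, ⟨0,2,0,3,0,0,1728,0⟩, ⟨0,2,0,3,1,0,0,3240⟩, ⟨0,2,0,3,2,0,1458,0⟩,
  ⟨1,0,0,1,0,0,8192,0⟩, ⟨1,0,0,1,1,0,0,9216⟩, ⟨1,0,0,2,0,0,0,9216⟩, ⟨1,0,0,2,1,0,13824,0⟩, ⟨1,0,0,2,2,0,0,5184⟩, ⟨1,0,0,3,0,0,1024,0⟩,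
  ⟨1,0,0,3,1,0,0,1920⟩, ⟨1,0,0,3,2,0,864,0⟩, ⟨1,1,0,1,0,0,0,15360⟩, ⟨1,1,0,1,1,0,17280,0⟩, ⟨1,1,0,2,0,0,17280,0⟩, ⟨1,1,0,2,1,0,0,25920⟩,
  ⟨1,1,0,2,2,0,9720,0⟩, ⟨1,1,0,3,0,0,0,1920⟩, ⟨1,1,0,3,1,0,3600,0⟩, ⟨1,1,0,3,2,0,0,1620⟩, ⟨1,2,0,1,0,0,6912,0⟩, ⟨1,2,0,1,1,0,0,7776⟩,
  ⟨1,2,0,2,0,0,0,7776⟩, ⟨1,2,0,2,1,0,11664,0⟩, ⟨1,2,0,2,2,0,0,4374⟩, ⟨1,2,0,3,0,0,864,0⟩, ⟨1,2,0,3,1,0,0,1620⟩, ⟨1,2,0,3,2,0,729,0⟩]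

/-- second hat of `Sm` -/
noncomputable def HSm2 : List Term := [
  ⟨0,0,0,0,0,0,4096,0⟩, ⟨0,0,0,0,1,0,0,6144⟩, ⟨0,0,0,0,2,0,2304,0⟩, ⟨0,1,0,0,0,0,0,3072⟩, ⟨0,1,0,0,1,0,4608,0⟩, ⟨0,1,0,0,2,0,0,1728⟩,
  ⟨1,0,0,0,0,0,4096,0⟩, ⟨1,0,0,0,1,0,0,6144⟩, ⟨1,0,0,0,2,0,2304,0⟩, ⟨1,0,0,1,0,0,2048,0⟩, ⟨1,0,0,1,1,0,0,3840⟩, ⟨1,0,0,1,2,0,1728,0⟩,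
  ⟨1,1,0,0,0,0,0,4608⟩, ⟨1,1,0,0,1,0,6912,0⟩, ⟨1,1,0,0,2,0,0,2592⟩, ⟨1,1,0,1,0,0,0,2304⟩, ⟨1,1,0,1,1,0,4320,0⟩, ⟨1,1,0,1,2,0,0,1944⟩,
  ⟨2,0,0,0,0,0,2048,0⟩, ⟨2,0,0,0,1,0,0,3072⟩, ⟨2,0,0,0,2,0,1152,0⟩, ⟨2,0,0,1,0,0,3072,0⟩, ⟨2,0,0,1,1,0,0,5760⟩, ⟨2,0,0,1,2,0,2592,0⟩,
  ⟨2,1,0,0,0,0,0,3072⟩, ⟨2,1,0,0,1,0,4608,0⟩, ⟨2,1,0,0,2,0,0,1728⟩, ⟨2,1,0,1,0,0,0,4608⟩, ⟨2,1,0,1,1,0,8640,0⟩, ⟨2,1,0,1,2,0,0,3888⟩,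
  ⟨2,2,0,0,0,0,1152,0⟩, ⟨2,2,0,0,1,0,0,1728⟩, ⟨2,2,0,0,2,0,648,0⟩, ⟨2,2,0,1,0,0,1728,0⟩, ⟨2,2,0,1,1,0,0,3240⟩, ⟨2,2,0,1,2,0,1458,0⟩,
  ⟨3,0,0,0,0,0,0,3072⟩, ⟨3,0,0,0,1,0,4608,0⟩, ⟨3,0,0,0,2,0,0,1728⟩, ⟨3,0,0,1,0,0,1024,0⟩, ⟨3,0,0,1,1,0,0,1920⟩, ⟨3,0,0,1,2,0,864,0⟩,
  ⟨3,1,0,0,0,0,5760,0⟩, ⟨3,1,0,0,1,0,0,8640⟩, ⟨3,1,0,0,2,0,3240,0⟩, ⟨3,1,0,1,0,0,0,1920⟩, ⟨3,1,0,1,1,0,3600,0⟩, ⟨3,1,0,1,2,0,0,1620⟩,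
  ⟨3,2,0,0,0,0,0,2592⟩, ⟨3,2,0,0,1,0,3888,0⟩, ⟨3,2,0,0,2,0,0,1458⟩, ⟨3,2,0,1,0,0,864,0⟩, ⟨3,2,0,1,1,0,0,1620⟩, ⟨3,2,0,1,2,0,729,0⟩]

noncomputable def PHSm1 : Prob := ⟨⟨⟨2, 1, [0, 1, 2]⟩, ⟨2, 2, [0, 1, 2]⟩, triv, 28, 2^28, 193⟩, ⟨⟨2, 3, [0, 1, 2]⟩, ⟨2, 2, [0, 1, 2]⟩, triv, 28, 2^28, 193⟩, 88, 2^103, HSm1, [], []⟩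

set_option maxRecDepth 100000 in
theorem HSm1_check : PHSm1.check = true := by decide +kernel

noncomputable def PHSm2 : Prob := ⟨⟨⟨2, 3, [0, 1, 2]⟩, ⟨2, 2, [0, 1, 2]⟩, triv, 28, 2^28, 193⟩, ⟨⟨2, 1, [0, 1, 2]⟩, ⟨2, 2, [0, 1, 2]⟩, triv, 28, 2^28, 193⟩, 89, 2^102, HSm2, [], []⟩

set_option maxRecDepth 100000 in
theorem HSm2_check : PHSm2.check = true := by decide +kernel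

end Crest.Agent.Lib.Bc.TailShort
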