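import Crest.Agent.Lib.Bc.BiCheck.Sound
/-!
# Row 163, tail pair corollaries: data and kernel checks for `Sp` (helper61), generated.
`H..1`, `H..2`: the two hats, `K₂ K D(chart) = s² t² (s² H1 + t² H2)`; all Bernstein digits are positive.
-/
namespace Crest.Agent.Lib.Bc.TailShort
open BiCheck (Term Rval termV Ax Side Prob)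

noncomputable def triv : Ax := ⟨1, 0, [0, 1]⟩

/-- `32` times the difference for `Sp` in `(a, 2c, 4a', 8c')` -/
noncomputable def TSp : List Term := [
  ⟨0,1,0,1,1,0,1,0⟩, ⟨0,1,0,2,0,0,0,2⟩, ⟨1,0,0,2,0,0,2,0⟩, ⟨1,1,0,0,1,0,4,0⟩, ⟨1,1,0,1,1,0,0,4⟩, ⟨1,1,0,2,0,0,6,0⟩,
  ⟨2,0,0,0,1,0,0,8⟩, ⟨2,0,0,1,0,0,8,0⟩, ⟨2,0,0,1,1,0,6,0⟩, ⟨2,0,0,2,0,0,0,4⟩]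

/-- first hat of `Sp` -/
noncomputable def HSp1 : List Term := [
  ⟨0,0,0,0,0,0,2048,0⟩, ⟨0,0,0,0,1,0,0,1536⟩, ⟨0,0,0,1,0,0,2048,0⟩, ⟨0,0,0,1,1,0,0,2304⟩, ⟨0,0,0,2,0,0,0,1536⟩, ⟨0,0,0,2,1,0,2304,0⟩,
  ⟨0,0,0,2,2,0,0,864⟩, ⟨0,0,0,3,0,0,0,1536⟩, ⟨0,0,0,3,1,0,2880,0⟩, ⟨0,0,0,3,2,0,0,1296⟩, ⟨0,1,0,0,0,0,0,3072⟩, ⟨0,1,0,0,1,0,2304,0⟩,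
  ⟨0,1,0,1,0,0,0,3072⟩, ⟨0,1,0,1,1,0,3456,0⟩, ⟨0,1,0,2,0,0,2304,0⟩, ⟨0,1,0,2,1,0,0,3456⟩, ⟨0,1,0,2,2,0,1296,0⟩, ⟨0,1,0,3,0,0,2304,0⟩,
  ⟨0,1,0,3,1,0,0,4320⟩, ⟨0,1,0,3,2,0,1944,0⟩, ⟨0,2,0,0,0,0,1152,0⟩, ⟨0,2,0,0,1,0,0,864⟩, ⟨0,2,0,1,0,0,1152,0⟩, ⟨0,2,0,1,1,0,0,1296⟩,
  ⟨0,2,0,2,0,0,0,864⟩, ⟨0,2,0,2,1,0,1296,0⟩, ⟨0,2,0,2,2,0,0,486⟩, ⟨0,2,0,3,0,0,0,864⟩, ⟨0,2,0,3,1,0,1620,0⟩, ⟨0,2,0,3,2,0,0,729⟩,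
  ⟨1,0,0,1,0,0,0,2048⟩, ⟨1,0,0,1,1,0,2304,0⟩, ⟨1,0,0,3,0,0,3072,0⟩, ⟨1,0,0,3,1,0,0,5760⟩, ⟨1,0,0,3,2,0,2592,0⟩, ⟨1,1,0,1,0,0,3840,0⟩,
  ⟨1,1,0,1,1,0,0,4320⟩, ⟨1,1,0,3,0,0,0,5760⟩, ⟨1,1,0,3,1,0,10800,0⟩, ⟨1,1,0,3,2,0,0,4860⟩, ⟨1,2,0,1,0,0,0,1728⟩, ⟨1,2,0,1,1,0,1944,0⟩,
  ⟨1,2,0,3,0,0,2592,0⟩, ⟨1,2,0,3,1,0,0,4860⟩, ⟨1,2,0,3,2,0,2187,0⟩]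

/-- second hat of `Sp` -/
noncomputable def HSp2 : List Term := [
  ⟨0,0,0,0,0,0,512,0⟩, ⟨0,0,0,0,1,0,0,768⟩, ⟨0,0,0,0,2,0,288,0⟩, ⟨0,1,0,0,0,0,0,384⟩, ⟨0,1,0,0,1,0,576,0⟩, ⟨0,1,0,0,2,0,0,216⟩,
  ⟨1,0,0,0,0,0,0,1024⟩, ⟨1,0,0,0,1,0,1536,0⟩, ⟨1,0,0,0,2,0,0,576⟩, ⟨1,0,0,1,0,0,0,512⟩, ⟨1,0,0,1,1,0,960,0⟩, ⟨1,0,0,1,2,0,0,432⟩,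
  ⟨1,1,0,0,0,0,1152,0⟩, ⟨1,1,0,0,1,0,0,1728⟩, ⟨1,1,0,0,2,0,648,0⟩, ⟨1,1,0,1,0,0,576,0⟩, ⟨1,1,0,1,1,0,0,1080⟩, ⟨1,1,0,1,2,0,486,0⟩,
  ⟨2,0,0,0,0,0,512,0⟩, ⟨2,0,0,0,1,0,0,768⟩, ⟨2,0,0,0,2,0,288,0⟩, ⟨2,1,0,0,0,0,0,768⟩, ⟨2,1,0,0,1,0,1152,0⟩, ⟨2,1,0,0,2,0,0,432⟩,
  ⟨2,2,0,0,0,0,288,0⟩, ⟨2,2,0,0,1,0,0,432⟩, ⟨2,2,0,0,2,0,162,0⟩, ⟨3,0,0,0,0,0,3072,0⟩, ⟨3,0,0,0,1,0,0,4608⟩, ⟨3,0,0,0,2,0,1728,0⟩,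
  ⟨3,0,0,1,0,0,0,1024⟩, ⟨3,0,0,1,1,0,1920,0⟩, ⟨3,0,0,1,2,0,0,864⟩, ⟨3,1,0,0,0,0,0,5760⟩, ⟨3,1,0,0,1,0,8640,0⟩, ⟨3,1,0,0,2,0,0,3240⟩,
  ⟨3,1,0,1,0,0,1920,0⟩, ⟨3,1,0,1,1,0,0,3600⟩, ⟨3,1,0,1,2,0,1620,0⟩, ⟨3,2,0,0,0,0,2592,0⟩, ⟨3,2,0,0,1,0,0,3888⟩, ⟨3,2,0,0,2,0,1458,0⟩,
  ⟨3,2,0,1,0,0,0,864⟩, ⟨3,2,0,1,1,0,1620,0⟩, ⟨3,2,0,1,2,0,0,729⟩]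

noncomputable def PHSp1 : Prob := ⟨⟨⟨2, 1, [0, 1, 2]⟩, ⟨2, 2, [0, 1, 2]⟩, triv, 28, 2^28, 191⟩, ⟨⟨2, 3, [0, 1, 2]⟩, ⟨2, 2, [0, 1, 2]⟩, triv, 28, 2^28, 191⟩, 88, 2^101, HSp1, [], []⟩

set_option maxRecDepth 100000 in
theorem HSp1_check : PHSp1.check = true := by decide +kernel

noncomputable def PHSp2 : Prob := ⟨⟨⟨2, 3, [0, 1, 2]⟩, ⟨2, 2, [0, 1, 2]⟩, triv, 28, 2^28, 192⟩, ⟨⟨2, 1, [0, 1, 2]⟩, ⟨2, 2, [0, 1, 2]⟩, triv, 28, 2^28, 192⟩, 89, 2^101, HSp2, [], []⟩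

set_option maxRecDepth 100000 in
theorem HSp2_check : PHSp2.check = true := by decide +kernel

end Crest.Agent.Lib.Bc.TailShort
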